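import Vale.Agent.P057AS.Plan
import Vale.Agent.P057SA.Stg
import Vale.Agent.P057RC.Root
import Vale.Agent.P057DR.Drop
import Vale.Agent.P057NA.Nar
import Vale.Agent.P057MD.Root
import Vale.Agent.P057RA.Root

/-!
The assembly of the passage from the multi-affine model to a kernel state.
-/

set_option linter.all false

open Matrix Finset Real
open Vale.Agent.P267.H775 Vale.Agent.P057G Vale.Agent.P057PC Vale.Agent.P057TP Vale.Agent.P057MA
open Vale.Agent.P057SG Vale.Agent.P057FC Vale.Agent.P057AS Vale.Agent.P057RG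
open Vale.Agent.P057DP (Sel abs_thK_le Gam_ne)
open Vale.Agent.P057SY (KS fo WO)
open Vale.Agent.P057IV (Ty)
open Vale.Agent.P057SA (ex_le pws_mono)
open Vale.Agent.P057GH (pd_Gam)

namespace Vale.Agent.P057AB

noncomputable section

theorem pd_sig {r : ℕ} {sig : ℝ} (h : 1 ≤ sig) :
    (sig ^ 2 • (1 : Matrix (Fin r) (Fin r) ℝ)).PosDef := PosDef.one.smul (by positivity)

theorem kr_le {r : ℕ} {sig : ℝ} (h : 1 ≤ sig) (K : Submodule ℤ (Fin r → ℤ)) (u : Fin r → ℝ) :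
    |kr sig K u| ≤ 1 := by
  rw [kr, abs_div, abs_of_pos (th_pos (pd_sig h) 0), div_le_one (th_pos (pd_sig h) 0)]
  exact abs_thK_le (pd_sig h) K u

section crude

variable {T : Tow} {s : ℕ} {N X : ℝ} {P : ℕ → ℝ} {C W S : Type} [Fintype W] [DecidableEq W]
  [Fintype S] {cl : W → C} {m : ℕ}

theorem card_le (hT : T.Ok s N) (hX : (s : ℝ) + 6 ≤ X) (hd : ∀ e, T.dm e ≤ X)
    (hn : (Fintype.card W + Fintype.card S : ℝ) ≤ X ^ 3) :
    (Fintype.card (Lb T cl S m) : ℝ) ≤ X ^ (4 * s + 8) := by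
  have h0 : (0 : ℝ) ≤ s := Nat.cast_nonneg _
  have h1 : 1 ≤ X ^ 3 := one_le_pow₀ (by linarith)
  have h2 : X ^ 3 + 1 ≤ X ^ 4 := by rw [pow_succ X 3]; nlinarith
  refine (P057NA.card_Lb hT (fun e => (hd e).trans (le_self_pow₀ (by linarith) three_ne_zero))
    hn).trans ?_
  rw [show 4 * s + 8 = 1 + 3 + 4 * (s + 1) by ring, pow_add X, pow_add X, pow_mul, pow_one]
  gcongr <;> linarith

theorem ch_le {cl : W → C} {Z : Sys T W Unit} (hT : T.Ok s N) (hZ : Z.Ok) (hN : 1 ≤ N)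
    (hX : (s : ℝ) + 6 ≤ X) (hd : ∀ e, T.dm e ≤ X ∧ T.yy N e ≤ X)
    (hn : (Fintype.card W + 1 : ℝ) ≤ X ^ 3) (w : PW T cl m → ℤ) (z : LS T cl m → ℤ) :
    ch Z (fun _ => 1) w z ≤ exp (X ^ (4 * s + 11)) := by
  have h0 : (0 : ℝ) ≤ s := Nat.cast_nonneg _
  have hG := pd_Gam hT.pd cl Unit m
  have o : P057PC.Ort (Gam T cl Unit m) No := fun i j hi hj => by_contra fun e => hi (by
    have h1 := Gam_ne e
    have h2 : T.lv i.cd = T.lv j.cd := by_contra fun k => e (by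
      simp only [Gam, of_apply, hT.blk _ _ k, ite_self])
    rw [Lb.Pure, h1.1, h1.2, h2]
    exact not_not.1 hj)
  have h1 : ch Z (fun _ => 1) w z ≤ ms (bk (Gam T cl Unit m) No) fun _ => 0 := by
    simp only [ch, mul_one]
    exact P057SH.ms_tri_le (posDef_bk hG No) (fun l l' e => by
      simp only [bk, submatrix_apply, Gam, of_apply, hT.blk _ _ e, ite_self])
      (P057DR.tri_N hT hZ w z)
  have h2 : ms (bk (Gam T cl Unit m) No) (fun _ => 0) ≤ ms (Gam T cl Unit m) fun _ => 0 := by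
    rw [ms_zero_split hG o]
    refine le_mul_of_one_le_right (ms_nonneg _ _) ?_
    rw [ms_zero (posDef_bk hG _)]
    exact one_le_th_zero (posDef_bk hG _).inv
  have x0 : 0 ≤ X ^ 3 := pow_nonneg (by linarith) 3
  refine h1.trans (h2.trans ((P057NA.ms_Gam hT hN x0 fun e => ?_).trans (exp_le_exp.2 ?_)))
  · have := dm_nonneg T e
    have h3 : (T.dm e + 1) ^ 2 ≤ (X + 1) ^ 2 := by gcongr; exact (hd e).1
    nlinarith [(hd e).2, mul_le_mul_of_nonneg_right (show 6 ≤ X by linarith) (sq_nonneg X)]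
  · rw [show 4 * s + 11 = 4 * s + 8 + 3 by ring, pow_add]
    exact mul_le_mul_of_nonneg_right (card_le hT hX (fun e => (hd e).1) (by simpa using hn)) x0

end crude

variable {T : Tow} {n p : ℕ} {R : Type} [Fintype R] [DecidableEq R] {ι : Type} [Fintype ι]
  [DecidableEq ι] {M : Mdd T n p R ι} {Z : Sys T (Uv n p R) Unit} {γ U : ℝ}
  {S : MS (Option (Fin n)) ι} {φ : (ι → ℝ) → Lu T n p R → ℝ} {k : ℕ}

theorem mem_ex {i : ι} : i ∈ M.ex ↔ i ∉ Set.range M.lab := by simp [Mdd.ex]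

theorem sub_BB {A : Finset (Option (Fin n))} : A ⊆ BB n ↔ none ∉ A :=
  ⟨fun h c => (mem_erase.1 (h c)).1 rfl, fun h v hv => mem_erase.2 ⟨fun e => h (e ▸ hv), mem_univ _⟩⟩

theorem cw_eq (h : Md M Z γ S φ k U) : M.cw = fce S (BB n) \ M.ex := by
  ext i
  simp only [Mdd.cw, mem_filter, mem_univ, true_and, Finset.mem_sdiff, fce, mem_ex, not_not, sub_BB]
  refine ⟨fun ⟨l, e, c⟩ => ⟨?_, l, e⟩, fun ⟨c, l, e⟩ => ⟨l, e, ?_⟩⟩
  · rwa [← e, h.fc, P057MD.none_lfo]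
  · rwa [← e, h.fc, P057MD.none_lfo] at c

theorem lfo_eq {O : Type} {pa : O → Uv n p R} (l : Lo T pa) :
    lfo l = (lvf l).image (Option.map Prod.fst) := by
  ext v
  simp only [lfo, lvf, mem_biUnion, mem_image, mem_filter, mem_univ, true_and]
  refine ⟨fun ⟨x, h1, h2⟩ => ?_, fun ⟨x, h1, h2⟩ => ⟨_, h1, ?_⟩⟩
  · rcases x with _ | w | u
    · exact ⟨none, h1, (mem_singleton.1 h2).symm⟩
    · exact ⟨some w, h1, (mem_singleton.1 h2).symm⟩
    · exact absurd h2 (notMem_empty _)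
  · cases x <;> exact mem_singleton.2 h2.symm

theorem ext_of (h : Md M Z γ S φ k U) {j : ℕ} (hk : k ≤ j) (h1 : (2 : ℝ) ^ j ≤ U) (h2 : 2 ≤ U)
    {τ : ℕ} (hτ : n + 2 + j < τ) {A : ℝ} (hA : U ^ 5 ≤ A) : Ext S M.ex τ A := by
  have a1 : (2 : ℝ) ^ k ≤ U := (pow_le_pow_right₀ one_le_two hk).trans h1
  have a2 : (k : ℝ) ≤ U := le_trans (by exact_mod_cast Nat.lt_two_pow_self.le) a1
  have a3 : U * U ≤ U ^ 5 := sq U ▸ pow_le_pow_right₀ (by linarith) (by norm_num)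
  refine ⟨fun a ha i hi => ?_, fun a ha => (h.xl a ha).2.trans_lt (by omega), h.xf,
    h.xc.trans (le_trans ?_ hA), h.xs, h.xx.trans (exp_le_exp.2 (le_trans ?_ hA))⟩
  · obtain ⟨l, rfl⟩ := not_not.1 (mt mem_ex.2 hi)
    exact (h.xl a ha).1 l
  · nlinarith
  · rw [show U ^ 5 = U * U * (U * U) * U by ring]
    gcongr
    nlinarith

theorem xe_congr {C W Λ : Type} [Fintype W] [DecidableEq W] [DecidableEq C] {T' : Tow} {cl : W → C}
    {m : ℕ} {S : MS (Option C) ι} {lab : Λ → ι} (hl : lab.Injective) {β : Λ → Lb T' cl Unit m}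
    (hβ : ∀ j, S.fc (lab j) = (fo (β j)).image (Option.map cl)) (r md : Λ → ℤ)
    {z z' : Lb T' cl Unit m → ℤ} (h : ∀ l, l.bs = none → z l = z' l) (i : ι)
    (hi : none ∉ S.fc i) : xe lab β r md z i = xe lab β r md z' i := by
  by_cases e : ∃ j, lab j = i
  · obtain ⟨j, rfl⟩ := e
    rw [xe, xe, hl.extend_apply, hl.extend_apply, h _ (by_contra fun c =>
      hi (hβ j ▸ mem_image.2 ⟨none, P057RA.none_fo.2 c, rfl⟩))]
  · rw [xe, xe, Function.extend_apply' _ _ _ e, Function.extend_apply' _ _ _ e]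

theorem asb (s : ℕ) : ASB s := by
  intro hS hG hM hT hD k
  obtain ⟨cG, kG, hG⟩ := hG k
  obtain ⟨cM, kM, hM⟩ := hM
  obtain ⟨cT, kT, hT⟩ := hT k
  obtain ⟨cD, kD, hD⟩ := hD
  obtain ⟨b, hb⟩ : ∃ b, b = cG + 2 * s + 5 := ⟨_, rfl⟩
  obtain ⟨K, hK⟩ : ∃ K, K = 2 ^ k := ⟨_, rfl⟩
  obtain ⟨c, hc⟩ : ∃ c, c = cG + cT + 2 * cM + b * cM + b * cD + b + K + k + 4 * s + 20 := ⟨_, rfl⟩
  refine ⟨c, s + 2 + k, by omega, fun N P T n p R _ _ Z f θ γ lam Λ sig Y r ξ σ F Ω h y1 y2 y3 y4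
    l1 l2 l3 _ g2 _ g4 hW => ?_⟩
  obtain ⟨x, hx⟩ : ∃ x, x = P (n + 2) := ⟨_, rfl⟩
  have cc : ∀ j : ℕ, j ≤ c → ∀ e, (j : ℝ) ≤ P e := fun j hj e =>
    le_trans (by exact_mod_cast hj) (h.lad.big e)
  have cy : ∀ j : ℕ, j ≤ c → (j : ℝ) ≤ Y := fun j hj => le_trans (by exact_mod_cast hj) y1
  have p2 : ∀ e, (2 : ℝ) ≤ P e := fun e => by exact_mod_cast cc 2 (by omega) e
  have p1 : ∀ e, (1 : ℝ) ≤ P e := fun e => by linarith only [p2 e]
  have pw : ∀ (e) {i j : ℕ}, i ≤ j → P e ^ i ≤ P e ^ j := fun e _ _ => pow_le_pow_right₀ (p1 e)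
  have Y2 : (2 : ℝ) ≤ Y := by exact_mod_cast cy 2 (by omega)
  have Y1 : (1 : ℝ) ≤ Y := by linarith only [Y2]
  have yw : ∀ {i : ℕ}, i ≤ c → Y ^ i ≤ P (n + 2) := fun h => (pow_le_pow_right₀ Y1 h).trans y2
  have yy : Y ≤ Y ^ 2 := le_self_pow₀ Y1 two_ne_zero
  have ey := exp_le_exp.2 yy
  have xb : P (n + 2) ≤ P (n + 2) ^ b := le_self_pow₀ (p1 _) (by omega)
  have x0 : P (n + 2) ≤ P 0 := lad_le h.lad (Nat.zero_le _)
  have e0 : ∀ j : ℕ, P 0 ^ j ≤ exp (j * Y) := fun j => by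
    rw [exp_nat_mul]
    exact pow_le_pow_left₀ (by linarith only [p1 0])
      ((log_le_iff_le_exp (by linarith only [p1 0])).1 y3) j
  have s6 : (s : ℝ) + 6 ≤ P 0 := by exact_mod_cast cc (s + 6) (by omega) 0
  have dd : ∀ e, T.dm e ≤ P 0 ∧ T.yy N e ≤ P 0 := fun e =>
    ⟨(h.cx e).1.trans (lad_le h.lad (Nat.zero_le _)), (h.cx e).2.trans (lad_le h.lad (Nat.zero_le _))⟩
  have cv : (Fintype.card (Vt n p R) : ℝ) ≤ P 0 ^ 3 := (P057RC.card_vt h (by omega)).trans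
    (pow_le_pow_left₀ (by linarith only [p1 (n + 2)]) x0 3)
  obtain ⟨Gd, m1, m2, m3⟩ := hG N P T n p R Z f θ γ lam Λ Y (Y ^ c)
    (P057RC.ctx_mono h (by omega) (by omega)) (cy cG (by omega)) (yy.trans (yw (by omega)))
    ((cy cG (by omega)).trans (le_self_pow₀ Y1 (by omega))) ((pw 0 (by omega)).trans l1)
    ((pw 0 (by omega)).trans l2) ((pw 0 (by omega)).trans l3) g2 g4
  refine ⟨Gd, m1, m2, fun D j X' φ E d L hj hC h0 o1 o2 hg hE e1 e2 d1 d2 hL hN => ?_⟩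
  obtain ⟨k', M, kk, md, mo⟩ := m3 D X' φ h0
  obtain ⟨s1, s2⟩ := hS s N T n p R Z h.ok h.zok
  obtain ⟨Q, sk⟩ := s2 γ _ _ X'.S _ k' M o1 md
  have K2 : (2 : ℝ) ^ k ≤ P (n + 2) := by have := cc K (by omega) (n + 2); rw [hK] at this; exact_mod_cast this
  have ex : Ext X'.S M.ex (s + 2 + k) (P (n + 2) ^ b) :=
    ext_of md kk K2 (p2 _) (by have := h.ns; omega) (pw _ (by omega))
  have ci : (Fintype.card X'.ι : ℝ) ≤ exp (Y ^ 2) := by
    have h1 := hC.card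
    have h2 : (Fintype.card (Lv T n p R) : ℝ) ≤ P 0 ^ (4 * s + 8) :=
      le_trans (by exact_mod_cast Fintype.card_subtype_le _)
        (card_le h.ok s6 (fun e => (dd e).1) (by simpa using cv))
    have h3 : P (n + 2) ≤ P 0 ^ (4 * s + 8) := x0.trans (le_self_pow₀ (p1 0) (by omega))
    have h4 : (2 : ℝ) ^ j * 2 ≤ exp Y := by
      rw [← pow_succ]
      refine le_trans ?_ (exp_le_exp.2 (cy (j + 1) (by omega)))
      rw [← mul_one ((j + 1 : ℕ) : ℝ), exp_nat_mul]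
      exact pow_le_pow_left₀ zero_le_two (by linarith only [add_one_le_exp (1 : ℝ)]) _
    have h5 : exp Y * exp ((4 * s + 8 : ℕ) * Y) ≤ exp (Y ^ 2) := by
      rw [← exp_add, sq]
      have := cy (4 * s + 8 + 1) (by omega)
      rw [Nat.cast_succ] at this
      exact exp_le_exp.2 (by nlinarith only [this, Y1])
    have h6 := mul_le_mul h4 (e0 (4 * s + 8)) (pow_nonneg (by linarith only [p1 0]) _) (exp_pos _).le
    have h7 : (2 : ℝ) ^ j * (Fintype.card (Lv T n p R) + P (n + 2)) ≤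
        2 ^ j * (2 * P 0 ^ (4 * s + 8)) := by gcongr; linarith only [h2, h3]
    change _ ≤ 2 ^ j * ((Fintype.card (Lv T n p R) : ℝ) + _) at h1
    linarith only [h1, h5, h6, h7, p1 (n + 2)]
  obtain ⟨c0, sh, hT⟩ := hT N P T n p R Z f θ γ k' X'.ι X'.S _ M
    (lad_mono h.lad (by exact_mod_cast (show cT ≤ c by omega))) h.ok h.cx h.zok h.ns h.u01 h.pP h.rP
    o1 kk md
  obtain ⟨ω, d', G, u, y, bb, w1, w2, w3, w4, w5, w6, w7, w8, w9, w10⟩ := hM s N T n p R Z f θ γ sig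
    (Y ^ 2) (P (n + 2) ^ b) r ξ σ F Ω X'.ι X'.S M.ex _ Q _ E d L c0 sh h.ok h.zok
    ((p2 0).trans ((le_self_pow₀ (p1 0) (by omega)).trans l2)) (Y2.trans yy)
    ((yw (by omega)).trans xb) s1 (fun z => (y4 z).trans ey)
    (fun w z => (ch_le h.ok h.zok h.lad.one s6 dd (le_trans (by
      simp only [Fintype.card_option, Fintype.card_sum (α := Wv n p) (β := Uv n p R)]
      push_cast
      linarith only [Nat.cast_nonneg (α := ℝ) (Fintype.card (Wv n p))]) cv) w z).trans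
      (exp_le_exp.2 ((e0 _).trans (exp_le_exp.2 (by
        rw [sq]; exact mul_le_mul_of_nonneg_right (cy _ (by omega)) (by linarith only [Y1]))))))
    (pws_mono hW yy) o1 o2 sk ex
    (cw_eq md ▸ mo.trans (mul_le_mul_of_nonneg_right (exp_le_exp.2 (pw _ (by omega)))
      (vl_pos o1.pd _).le)) ci
    (hg.mono o1 o2 (by rw [← pow_mul]; exact pow_le_pow_right₀ Y1 (by omega))) hE
    (fun z e => (ex_le yy).trans (e1 z e)) ((ex_le yy).trans e2) d1 (d2.trans ey)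
    (fun a => (hL a).1) fun z e a => (hN z e a).mono ey
  have yM : exp ((Y ^ 2) ^ cM) ≤ exp (P (n + 2)) := by
    rw [← pow_mul]; exact exp_le_exp.2 (yw (by omega))
  obtain ⟨T', Z', β, r', md', zo, t1, t2, t3, t4, t5, t6, t7⟩ := hT (exp Y) _ _
    ω d' G _ w1 (w2.trans yM) w3 (w4.trans yM) w5 w6
    (fun x z => by
      rw [abs_mul, abs_of_nonneg (w8 x z).1]
      exact mul_le_one₀ (w8 x z).2 (abs_nonneg _) (kr_le hW.2.1 _ _)) y4 (exp_pos _) w10
  have fb : ∀ l, X'.S.fc (M.lab l) = (fo (β l)).image (Option.map Prod.fst) := fun l => by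
    rw [md.fc, (t5 l).2, lfo_eq]
  obtain ⟨E', i1, i2, X, Φ, lt, v1, v2, v3, v4, v5, v6⟩ := hD T' (Fin n) (Wv n p) Prod.fst (n + 2)
    X'.ι _ (Fin r) X'.S M.ex M.lab β r' md' (fun j w => ∑ i, (σ.D * σ.w i j : ℝ) * L i w) _ _ o1 o2
    ((p2 _).trans xb) (fun i => ⟨(i, ⟨0, h.p1⟩), rfl⟩) (by
      rw [Fintype.card_prod, Fintype.card_fin, Fintype.card_fin, Nat.cast_mul]
      have h1 : (n : ℝ) * p ≤ P (n + 2) ^ 2 := by
        rw [sq]
        exact mul_le_mul (cc n (by have := h.ns; omega) _) h.pP (Nat.cast_nonneg _)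
          (by linarith only [p1 (n + 2)])
      refine (pow_le_pow_left₀ (by positivity) h1 n).trans ?_
      rw [← pow_mul]
      exact pw _ (by have := h.ns; omega)) ex md.inj (fun _ => mem_ex)
    (fun l => ⟨(t5 l).1, fb l⟩) fun j => ⟨Lin.sum _ _ fun i _ => (hL i).1.lin _ (mem_singleton_self _),
      fun v => Aff.sum _ _ fun i _ => (hL i).2 _ (mem_erase.2 ⟨Option.some_ne_none v, mem_univ _⟩)⟩
  have f1 : ∀ (e) {i : ℕ}, b * i ≤ c → (P e ^ b) ^ i ≤ P e ^ c := fun e i h => by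
    rw [← pow_mul]; exact pw e h
  have yc : Y ^ 2 ≤ P (n + 2) ^ c := (yw (by omega)).trans (le_self_pow₀ (p1 _) (by omega))
  have wo : ∀ z z' : Lb T' Prod.fst Unit (n + 2) → ℤ, (∀ l, l.bs = none → z l = z' l) → _ :=
    fun z z' e => w7 _ _ (xe_congr md.inj fb r' md' e)
  refine ⟨T', Z', exp Y, exp (-(P (n + 2) ^ b) ^ cM),
    exp (-(P (n + 2) ^ b) ^ cM) * exp (-P 0 ^ cT), t1, t2, t3, grow_mono t4 fun e => pw e (by omega),
    ey.trans (exp_le_exp.2 yc), ex_le (f1 _ (i := cM) (by omega)), ?_, E', Fin r, i1, i2, inferInstance,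
    inferInstance, X, Φ, _, σ.K, fun z => u (xe M.lab β r' md' z) (zo z),
    fun z => lt z (y (xe M.lab β r' md' z)), fun z j => bb (xe M.lab β r' md' z) (zo z) j -
      ∑ i, (σ.D * σ.w i j : ℝ) * L i (toR (put M.ex (y (xe M.lab β r' md' z))
        (xe M.lab β r' md' fun l => if l.bs = none then z l else 0))),
    v1, ⟨v2.tr, v2.card.trans (f1 _ (by omega)), v2.sep, v2.cx.trans (exp_le_exp.2 (f1 _ (by omega)))⟩,
    v3, by rw [Fintype.card_fin]; exact hW.1.trans (yy.trans yc),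
    by simpa only [Fintype.card_fin] using v4, pd_sig hW.2.1, fun j => ?_, fun z z' e => ?_,
    fun z z' e => ?_, fun z z' e => ?_, fun z => w8 _ _, fun z e => ((v6 z _).1 ((w9 _ _ e).trans
      (yM.trans (exp_le_exp.2 xb)))).trans (exp_le_exp.2 (f1 _ (by omega))), ?_⟩
  rotate_right
  · convert t7 using 3 with z
    rw [kr]
    congr 3
    funext j
    rw [Pi.sub_apply, (v6 z _).2 j]
    ring
  · rw [← exp_add]
    have h1 : (P (n + 2) ^ b) ^ cM ≤ P 0 ^ (c - 1) := by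
      rw [← pow_mul]
      exact (pow_le_pow_left₀ (by linarith only [p1 (n + 2)]) x0 _).trans (pw 0 (by omega))
    have h2 : P 0 ^ cT ≤ P 0 ^ (c - 1) := pw 0 (by omega)
    have h3 : P 0 ^ c = P 0 ^ (c - 1) * P 0 := by rw [← pow_succ]; congr 1; omega
    have h4 := mul_le_mul_of_nonneg_left (p2 0) (pow_nonneg (by linarith only [p1 0]) (c - 1))
    exact exp_le_exp.2 (by linarith only [h1, h2, h3, h4])
  · simp only [Matrix.smul_apply, one_apply_eq, smul_eq_mul, mul_one]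
    refine (pow_le_pow_left₀ (by linarith only [hW.2.1]) hW.2.2.1 2).trans ?_
    rw [← exp_nat_mul]
    exact exp_le_exp.2 (le_trans (by push_cast; nlinarith only [Y2]) yc)
  · simp only [(wo z z' e).1, t6 z z' e]
  · simp only [(wo z z' e).2.1, v5 z z' e]
  · have e2 : (fun l => if l.bs = none then z l else 0) = fun l => if l.bs = none then z' l else 0 :=
      funext fun l => by split_ifs with a; exacts [e l a, rfl]
    simp only [(wo z z' e).2.1, (wo z z' e).2.2, t6 z z' e, e2]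

end

end Vale.Agent.P057AB
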